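import Vale.Agent.P060.Main

/-! The conjecture of Hadwiger is false. -/

theorem Vale.Agent.Results.P060.NotHadwiger.result :
    ¬ ∀ (V : Type) [Fintype V] [Nonempty V] (G : SimpleGraph V) (t : ℕ), 1 ≤ t →
      ¬ Vale.Agent.P060.HasKMinor G (t + 1) → G.Colorable t := by
  intro h
  obtain ⟨m, G, t, hm, ht, h1, h2⟩ := Vale.Agent.P060.counterEx
  have : Nonempty (Fin m) := ⟨⟨0, hm⟩⟩
  exact h2 (h (Fin m) G t ht h1)
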